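import Vale.Agent.P297L41.E2

/-!
# Local frames of the canonical sheaf
-/

open CategoryTheory Opposite AlgebraicGeometry TopologicalSpace

namespace Vale.Agent.P297L

open Vale.Agent.P271L Vale.Agent.P299.G

noncomputable section

variable {X : Scheme.{0}} {P : Pre X} {W W' : X.Opens} {n : ℕ}

/-- Pure wedges. -/
def wd (p : Fin n → S P W) : S (preWedge n P) W :=
  (exteriorPower.ιMulti Γ(X, W) n p : ⋀[Γ(X, W)]^n (S P W))

theorem res_wd (e : W' ≤ W) (p : Fin n → S P W) :
    res (preWedge n P) e (wd p) = wd fun i => res P e (p i) :=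
  wedgeMap_mk (P.map (homOfLE e).op) n p

theorem wd_sum (A : Matrix (Fin n) (Fin n) Γ(X, W)) (b : Fin n → S P W) :
    wd (fun i => ∑ j, A i j • b j) = A.det • wd b :=
  alt_sum (exteriorPower.ιMulti Γ(X, W) n) A b

theorem ext_induction {A : Type} [CommRing A] (M : ModuleCat.{0} A) {C : M.exteriorPower n → Prop}
    (t : M.exteriorPower n) (hd : ∀ p, C (exteriorPower.ιMulti A n (M := M) p)) (h0 : C 0)
    (h1 : ∀ s t, C s → C t → C (s + t)) (h2 : ∀ (a : A) t, C t → C (a • t)) : C t := by
  have key : ∀ t : ⋀[A]^n M, C t := fun t => by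
    have hp : t ∈ Submodule.span A (Set.range (exteriorPower.ιMulti A n (M := M))) := by
      rw [exteriorPower.ιMulti_span]
      trivial
    induction hp using Submodule.span_induction with
    | mem x hx =>
      obtain ⟨a, rfl⟩ := hx
      exact hd a
    | zero => exact h0
    | add x y _ _ hx hy => exact h1 x y hx hy
    | smul a x _ hx => exact h2 a x hx
  exact key t

theorem wd_induction {C : S (preWedge n P) W → Prop} (t : S (preWedge n P) W)
    (hd : ∀ p, C (wd p)) (h0 : C 0) (h1 : ∀ s t, C s → C t → C (s + t))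
    (h2 : ∀ (a : Γ(X, W)) t, C t → C (a • t)) : C t := by
  exact ext_induction (A := Γ(X, W)) (P.obj (op W)) t hd h0 h1 h2

theorem gen_wedge {b : Fin n → S P W} (hb : Gen P W b) : Gen1 (preWedge n P) W (wd b) := by
  intro V e t z hz
  induction t using wd_induction with
  | hd p =>
    choose U e' hU a ha using fun i => hb V e (p i) z hz
    let V' : X.Opens := ⟨(V : Set X) ∩ ⋂ i, (U i : Set X),
      V.2.inter (isOpen_iInter_of_finite fun i => (U i).2)⟩
    have h1 : V' ≤ V := Set.inter_subset_left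
    have h2 : ∀ i, V' ≤ U i := fun i => Set.inter_subset_right.trans (Set.iInter_subset _ i)
    refine ⟨V', h1, ⟨hz, Set.mem_iInter.2 hU⟩, Matrix.det (Matrix.of fun i j => r (h2 i) (a i j)),
      ?_⟩
    rw [res_wd, res_wd, ← wd_sum]
    refine congrArg wd (funext fun i => ?_)
    rw [← res_res (e' i) (h2 i), ha, map_sum]
    exact Finset.sum_congr rfl fun j _ => by rw [res_smul, res_res]; rfl
  | h0 => exact ⟨V, le_rfl, hz, 0, by rw [map_zero, zero_smul]⟩
  | h1 s t hs ht =>
    obtain ⟨V1, e1, hz1, a, ha⟩ := hs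
    obtain ⟨V2, e2, hz2, a', ha'⟩ := ht
    refine ⟨V1 ⊓ V2, inf_le_left.trans e1, ⟨hz1, hz2⟩, r inf_le_left a + r inf_le_right a', ?_⟩
    have h1 := congrArg (res (preWedge n P) (inf_le_left : V1 ⊓ V2 ≤ V1)) ha
    have h2 := congrArg (res (preWedge n P) (inf_le_right : V1 ⊓ V2 ≤ V2)) ha'
    rw [res_smul, res_res, res_res] at h1 h2
    rw [map_add, h1, h2, add_smul]
  | h2 c t ht =>
    obtain ⟨V1, e1, hz1, a, ha⟩ := ht
    exact ⟨V1, e1, hz1, r e1 c * a, by rw [res_smul, ha, mul_smul]⟩

variable [IsIntegral X]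

theorem exists_ev_wedge (T : Fin n → Ev P X.functionField) (c : X.functionField) :
    ∃ T' : Ev (preWedge n P) X.functionField, ∀ W h (p : Fin n → S P W),
      T'.θ W h (wd p) = c * Matrix.det fun i j => (T j).θ W h (p i) := by
  have h1 : ∀ (W : X.Opens) (h : genericPoint X ∈ W),
      ∃ θ : S (preWedge n P) W →+ X.functionField,
        (∀ (a : Γ(X, W)) t, θ (a • t) = gk W h a • θ t) ∧
          ∀ p, θ (wd p) = c * Matrix.det fun i j => (T j).θ W h (p i) := by
    intro W h
    let _ := (gk W h).toAlgebra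
    let l : S P W →ₗ[Γ(X, W)] (Fin n → X.functionField) :=
      { toFun := fun p j => (T j).θ W h p
        map_add' := fun p q => funext fun j => map_add _ p q
        map_smul' := fun a p => funext fun j => (T j).smul W h a p }
    let φ : (S P W) [⋀^Fin n]→ₗ[Γ(X, W)] X.functionField :=
      { ((c • Matrix.detRowAlternating (R := X.functionField)
          (n := Fin n)).toMultilinearMap.restrictScalars Γ(X, W)).compLinearMap fun _ => l with
        map_eq_zero_of_eq' := fun p i j hp hij =>
          (c • Matrix.detRowAlternating (R := X.functionField) (n := Fin n)).map_eq_zero_of_eq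
            (fun k => l (p k)) (congrArg l hp) hij }
    exact ⟨(exteriorPower.alternatingMapLinearEquiv φ).toAddMonoidHom,
      fun a t => (exteriorPower.alternatingMapLinearEquiv φ).map_smul a t,
      fun p => exteriorPower.alternatingMapLinearEquiv_apply_ιMulti φ p⟩
  choose θ h2 h3 using h1
  refine ⟨⟨θ, h2, fun {W W'} e h t => ?_⟩, h3⟩
  induction t using wd_induction with
  | hd p => simp only [res_wd, h3, Ev.res]
  | h0 => rw [map_zero, map_zero, map_zero]
  | h1 p q hp hq => rw [map_add, map_add, map_add, hp, hq]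
  | h2 a p hp => rw [res_smul, h2, h2, hp, gk_r]

variable {f : X ⟶ Spec (CommRingCat.of ℂ)} [Algebra ℂ X.functionField]

theorem form_eq (ω : Dr X [⋀^Fin n]→ₗ[X.functionField] X.functionField)
    (d : Module.Basis (Fin n) X.functionField (Dr X)) (w : Fin n → Dr X) :
    ω w = (Matrix.det fun i j => d.repr (w j) i) * ω d := by
  rw [mul_comm]
  conv_lhs => rw [ω.eq_smul_basis_det d]
  rfl

/-- The sections of the canonical sheaf, as multiples of the rational form `ω`. -/
theorem exists_ev_canonical (hf : Compat f) [SmoothOfRelativeDimension n f]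
    (ω : Dr X [⋀^Fin n]→ₗ[X.functionField] X.functionField) {v : Fin n → Dr X} (hv : ω v ≠ 0) :
    ∃ T : Ev (pv (canonical f n)) X.functionField, ∀ x, ∃ d : Fin n → Dr X,
      ω d ≠ 0 ∧ Fr T x (ω d)⁻¹ ∧ ∀ y, y ⤳ x → (∀ i, Pres (d i) y) ∧
        ∀ w : Fin n → Dr X, (∀ i, Pres (w i) y) →
          ∃ c : X.presheaf.stalk y, ω w = toK y c * ω d := by
  choose T1 h1 using fun j => (evOm hf (v j)).exists_sh
  obtain ⟨T2, h2⟩ := exists_ev_wedge T1 (ω v)⁻¹
  obtain ⟨T3, h3⟩ := T2.exists_sh
  refine ⟨T3, fun x => ?_⟩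
  obtain ⟨W, hx, b, d, hb, hd, hp⟩ := exists_frame hf n x
  have h4 := form_eq ω d v
  have h5 : ω d ≠ 0 := fun h => hv (by rw [h4, h, mul_zero])
  refine ⟨d, h5, ⟨inv_ne_zero h5, W, hx, _, (gen_wedge hb.sh).sh, (h3 _ _ _).trans ?_⟩,
    fun y hy => ⟨hp y (hy.mem_open W.isOpen hx), fun w hw => ?_⟩⟩
  · rw [h2]
    simp only [h1, ← hd]
    rw [inv_mul_eq_iff_eq_mul₀ hv, eq_mul_inv_iff_mul_eq₀ h5]
    exact h4.symm
  · have hyW := hy.mem_open W.isOpen hx
    choose c hc using fun i j => evOm_reg hf (hw j) hyW (b i)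
    refine ⟨Matrix.det (Matrix.of c), ?_⟩
    rw [form_eq ω d w, RingHom.map_det]
    congr 2
    ext i j
    exact (hd _ _).trans (hc i j).symm

/-- The rational vector fields have a basis with `n` elements. -/
theorem exists_basis_der (hf : Compat f) (n : ℕ) [SmoothOfRelativeDimension n f] :
    Nonempty (Module.Basis (Fin n) X.functionField (Dr X)) := by
  obtain ⟨W, hx, b, d, -⟩ := exists_frame hf n (genericPoint X)
  exact ⟨d⟩

end

end Vale.Agent.P297L
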