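import Mathlib.AlgebraicGeometry.Modules.Sheaf
import Mathlib.CategoryTheory.Sites.SheafCohomology.Basic
import Mathlib.Topology.Sheaves.Abelian
import Mathlib.Algebra.Category.Grp.AB
import Mathlib.Algebra.Category.Ring.Limits
import Mathlib.CategoryTheory.Abelian.GrothendieckCategory.HasExt
import Mathlib.CategoryTheory.Abelian.GrothendieckAxioms.Sheaf

/-!
# The cohomology of the structure sheaf
-/

open CategoryTheory AlgebraicGeometry

namespace Vale.Agent.P297M

section

variable {C : Type} [SmallCategory C] (J : GrothendieckTopology C)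

theorem hasSheafify : HasSheafify J AddCommGrpCat.{0} := inferInstance

theorem hasExt [HasSheafify J AddCommGrpCat.{0}] : HasExt.{0} (Sheaf J AddCommGrpCat.{0}) :=
  inferInstance

/-- The cohomology group `H^n(F)` of a sheaf of abelian groups. -/
def Coh (F : Sheaf J AddCommGrpCat.{0}) (n : ℕ) : Type :=
  haveI := hasSheafify J
  haveI := hasExt J
  Sheaf.H.{0} F n

end

/-- The structure sheaf `O_S`, as a sheaf of abelian groups. -/
noncomputable def OAb (S : Scheme.{0}) : Sheaf (Opens.grothendieckTopology S) AddCommGrpCat.{0} :=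
  (sheafCompose _ (forget₂ RingCat AddCommGrpCat)).obj S.ringCatSheaf

/-- The irregularity vanishes: `H^1(S, O_S) = 0`. -/
def IrrZero (S : Scheme.{0}) : Prop := Subsingleton (Coh _ (OAb S) 1)

end Vale.Agent.P297M
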