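import Vale.Agent.P297L41.Asm
import Vale.Agent.P297L41.St
import Vale.Agent.P297Z.Final

/-!
# The irregularity and the cohomology of the structure sheaf
-/

open CategoryTheory Limits Opposite AlgebraicGeometry TopologicalSpace

namespace Vale.Agent.P297L

open Vale.Agent.P299.S Vale.Agent.P299.G Vale.Agent.P271L

section

variable {T : TopCat.{0}}

/-- The underlying sheaf of abelian groups. -/
noncomputable abbrev fg (T : TopCat.{0}) :
    Shf T ⥤ Sheaf (Opens.grothendieckTopology T) AddCommGrpCat.{0} :=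
  sheafCompose _ (forget₂ (ModuleCat.{0} ℂ) AddCommGrpCat.{0})

instance : (fg T).PreservesZeroMorphisms where
  map_zero _ _ := rfl

theorem shortExact_fg {S : ShortComplex (Shf T)} (hS : S.ShortExact) :
    (S.map (fg T)).ShortExact := by
  have h1 : ∀ {J : Type} [SmallCategory J] [FinCategory J] (K : J ⥤ Shf T),
      PreservesLimit K (fg T) := fun K => by
    have : PreservesLimit K (fg T ⋙ sheafToPresheaf _ _) :=
      inferInstanceAs (PreservesLimit K (sheafToPresheaf _ _ ⋙ (Functor.whiskeringRight _ _ _).obj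
        (forget₂ (ModuleCat.{0} ℂ) AddCommGrpCat.{0})))
    exact preservesLimit_of_reflects_of_preserves _ (sheafToPresheaf _ _)
  have := hS.mono_f
  have h2 : Mono ((fg T).map S.f) := by
    have := h1 (cospan S.f S.f)
    exact preserves_mono_of_preservesLimit _ _
  have h3 : Epi ((fg T).map S.g) := by
    have h := (TopCat.Presheaf.isLocallySurjective_iff S.g.hom).1
      ((CategoryTheory.Sheaf.isLocallySurjective_iff_epi' (A := ModuleCat.{0} ℂ)
        (φ := S.g)).2 hS.epi_g)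
    exact (CategoryTheory.Sheaf.isLocallySurjective_iff_epi' (A := AddCommGrpCat.{0})
      (φ := (fg T).map S.g)).1
        ((TopCat.Presheaf.isLocallySurjective_iff ((fg T).map S.g).hom).2 h)
  exact { exact := hS.exact.map_of_mono_of_preservesKernel _ hS.mono_f (h1 _)
          mono_f := h2
          epi_g := h3 }

theorem vanH_of (F : Shf T) (h : Subsingleton (Sheaf.H.{0} ((fg T).obj F) 1)) : VanH F 1 := by
  let S : ShortComplex (Shf T) :=
    ShortComplex.mk (Injective.ι F) (cokernel.π _) (cokernel.condition _)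
  have hS : S.ShortExact := { exact := ShortComplex.exact_cokernel _ }
  refine subsingleton_of_forall_eq 0 fun x => ?_
  obtain ⟨y, hy⟩ := Abelian.Ext.covariant_sequence_exact₁ _ hS x
    (Abelian.Ext.eq_zero_of_injective _) (n₀ := 0) rfl
  obtain ⟨φ, rfl⟩ := (Abelian.Ext.mk₀_bijective _ _).2 y
  have ht := Preorder.isTerminalTop (Opens T)
  obtain ⟨z, hz⟩ := Abelian.Ext.covariant_sequence_exact₃ _ (shortExact_fg hS)
    ((Sheaf.H.equiv₀.{0} _ ht).symm (P299.Q.evalTop S.X₃ φ)) rfl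
    (Subsingleton.elim (α := Sheaf.H.{0} ((fg T).obj F) 1) _ _)
  obtain ⟨ψ, hψ⟩ : ∃ ψ : constC T ⟶ S.X₂, P299.Q.evalTop S.X₂ ψ = Sheaf.H.equiv₀.{0} _ ht z :=
    (P299.Q.evalTop_bijective S.X₂).2 _
  have h2 : ψ ≫ S.g = φ := by
    refine (P299.Q.evalTop_bijective S.X₃).1 ?_
    have h3 := Sheaf.H.equiv₀_naturality ht ((fg T).map S.g) z
    refine Eq.trans ?_ ((h3.trans (congrArg _ hz)).trans (AddEquiv.apply_symm_apply _ _))
    exact congrArg (S.g.hom.app (op ⊤)).hom hψ
  rw [← hy, ← h2, ← Abelian.Ext.mk₀_comp_mk₀, Abelian.Ext.comp_assoc_of_second_deg_zero,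
    hS.comp_extClass, Abelian.Ext.comp_zero]

theorem subsingleton_of_iso {F G : Sheaf (Opens.grothendieckTopology T) AddCommGrpCat.{0}}
    (φ : F ⟶ G) [IsIso φ] (h : Subsingleton (Sheaf.H.{0} F 1)) :
    Subsingleton (Sheaf.H.{0} G 1) := by
  refine subsingleton_of_forall_eq 0 fun x => ?_
  rw [← Sheaf.H.map_id_apply x, ← IsIso.inv_hom_id φ, Sheaf.H.map_comp_apply,
    Subsingleton.elim (Sheaf.H.map (inv φ) 1 x) 0, map_zero]

end

theorem irr (X : PVar) (h : P297M.IrrZero X.X) : P297Z.IrregularityZero X := by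
  rintro F ⟨e, he, hr⟩
  have hne : ∀ U : X.X.Opens, genericPoint X.X ∈ U → Nonempty U := fun U h => ⟨⟨_, h⟩⟩
  have hbot : ∀ U : X.X.Opens, genericPoint X.X ∉ U → U = ⊥ := fun U h =>
    eq_bot_iff.2 fun z hz => h (gen_mem hz)
  have hF : ∀ (U : X.X.Opens) (s t : Sec F U),
      (genericPoint X.X ∈ U → (e U).hom s = (e U).hom t) → s = t := by
    intro U s t hst
    by_cases hU : genericPoint X.X ∈ U
    · exact (ModuleCat.mono_iff_injective _).1 (he U (hne U hU)).1 (hst hU)
    · have := ModuleCat.subsingleton_of_isZero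
        (TopCat.Sheaf.isTerminalOfEqEmpty (X := Sp X.X) F (hbot U hU)).isZero
      exact Subsingleton.elim (α := F.obj.obj (op U)) s t
  have hO : ∀ (U : X.X.Opens) (a b : Γ(X.X, U)), (∀ hU, gk U hU a = gk U hU b) → a = b := by
    intro U a b hab
    by_cases hU : genericPoint X.X ∈ U
    · exact gk_injective hU (hab hU)
    · have := CommRingCat.subsingleton_of_isTerminal (X.X.sheaf.isTerminalOfEqEmpty (hbot U hU))
      exact Subsingleton.elim (α := X.X.sheaf.obj.obj (op U)) a b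
  have h1 : ∀ (U : X.X.Opens) (a : Γ(X.X, U)), ∃ s : Sec F U, ∀ hU, (e U).hom s = gk U hU a := by
    intro U a
    by_cases hU : genericPoint X.X ∈ U
    · obtain ⟨s, hs⟩ := ((he U (hne U hU)).2 (gk U hU a)).2 fun x hx =>
        ⟨X.X.presheaf.germ U x hx a, toK_germ hx a⟩
      exact ⟨s, fun _ => hs⟩
    · exact ⟨0, fun h => absurd h hU⟩
  choose p hp using h1
  have hadd : ∀ (U : X.X.Opens) (a b : Γ(X.X, U)), p U (a + b) = p U a + p U b := fun U a b =>
    hF U _ _ fun hU => by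
      rw [map_add, hp U _ hU, hp U _ hU, hp U _ hU, map_add]
      rfl
  have hres : ∀ (U V : X.X.Opens) (i : V ≤ U) (a : Γ(X.X, U)),
      p V (r i a) = (P299.S.res F i).hom (p U a) := fun U V i a =>
    hF V _ _ fun hV => by
      rw [hp V _ hV, gk_r, ← hp U a (i hV), ← hr U V i (hne V hV)]
      rfl
  have hbij : ∀ U : X.X.Opens, Function.Bijective (p U) := fun U =>
    ⟨fun a b hab => hO U a b fun hU => by rw [← hp U a hU, ← hp U b hU, hab], fun s => by
      obtain ⟨a, ha⟩ := exists_of_ev (T := evTriv X.X) (V := U) (g := (e U).hom s) fun z hz => by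
        obtain ⟨c, hc⟩ := ((he U ⟨⟨z, hz⟩⟩).2 _).1 ⟨s, rfl⟩ z hz
        exact ⟨1, fr_triv z, c, hc.symm.trans (mul_one _).symm⟩
      exact ⟨a, hF U _ _ fun hU => (hp U a hU).trans (ha hU)⟩⟩
  let φ : P297M.OAb X.X ⟶ (fg (Sp X.X)).obj F :=
    ⟨{ app := fun U => AddCommGrpCat.ofHom (AddMonoidHom.mk' (p U.unop) (hadd U.unop))
       naturality := fun U V i => AddCommGrpCat.hom_ext (AddMonoidHom.ext fun a =>
         hres U.unop V.unop i.unop.le a) }⟩
  have h2 : ∀ U, IsIso (φ.hom.app U) := fun U =>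
    (ConcreteCategory.isIso_iff_bijective _).2 (hbij U.unop)
  have h3 : IsIso φ.hom := NatIso.isIso_of_isIso_app _
  have h4 : IsIso φ := by
    have : IsIso ((sheafToPresheaf _ _).map φ) := h3
    exact isIso_of_reflects_iso φ (sheafToPresheaf _ _)
  exact vanH_of F (@subsingleton_of_iso (Sp X.X) _ _ φ h4 h)

open Vale.Agent.P297M in
/-- The case `p_g = q = 0`. -/
theorem asm0 (S : Scheme.{0}) (f : S ⟶ Spec (CommRingCat.of ℂ)) [SmoothOfRelativeDimension 2 f]
    [ConnectedSpace S] (hf : P297M.IsProjective f) :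
    Nonempty (P297M.ClosedPt S) ∧ (P297M.pg f = 0 → IrrZero S →
      (∀ x y : P297M.ClosedPt S, cl x = cl y) ∧
        ∃ deg : CH0 S ≃+ ℤ, ∀ x : P297M.ClosedPt S, deg (cl x) = 1) := by
  have h1 : Smooth f := SmoothOfRelativeDimension.smooth 2 f
  have h2 : IsIntegral S := P297G93.isIntegral_of_smooth f
  obtain ⟨N, j, hj, hjf⟩ := hf
  have h3 : IsProper f := by
    have : IsProper (str (Fin (N + 1))) := P297G93.isProper_proj _
    rw [← hjf]
    infer_instance
  let X : PVar := @PVar.mk S f h2 h1 h3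
  obtain ⟨x₀⟩ : Nonempty (P297M.ClosedPt S) :=
    (P297Z.Sf.exists_closed (X := X) (genericPoint S)).nonempty
  refine ⟨⟨x₀⟩, fun hg hq => ?_⟩
  have hs : SmoothOfRelativeDimension 2 X.str := ‹_›
  obtain ⟨hd, κ, hκ, h0⟩ := can_gen X 2
  have h4 : ¬ HasSec κ := fun h => by
    let _ := Module.compHom Γ(P297M.canonical f 2, ⊤) (P297M.cst f ⊤).hom
    have h5 : Subsingleton Γ(P297M.canonical f 2, ⊤) := rank_zero_iff (R := ℂ).1 hg
    exact not_subsingleton_iff_nontrivial.2 (h0.1 h) h5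
  have hA : ∃ A : Div X, P299.S.IsAmple A :=
    @P297G93.amp_of_affine X _ _ j (inferInstanceAs (IsAffineHom (Y := Pj (Fin (N + 1))) j))
  have h5 : ∀ x y : P297M.ClosedPt S, cl x = cl y := fun x y => by
    refine QuotientAddGroup.eq_iff_sub_mem.2 ?_
    rw [P297L1.rat_eq f]
    exact P297Z.blochAll ⟨X, hA⟩ κ hd hκ h4 (irr X hq) x y
  obtain ⟨-, ⟨ι, _, A, a, ha⟩, h6⟩ := asm S f ⟨N, j, hj, hjf⟩ hg x₀
  obtain ⟨deg, -, h7, -⟩ := h6 ι A a ha
  have h8 : ∀ z : CH0 S, z = deg z • cl x₀ := by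
    intro z
    obtain ⟨w, rfl⟩ := QuotientAddGroup.mk'_surjective _ z
    induction w using Finsupp.induction_linear with
    | zero => simp
    | add u v hu hv => rw [map_add, map_add, add_zsmul, ← hu, ← hv]
    | single x n =>
      have h9 : QuotientAddGroup.mk' (P297M.Rat S) (Finsupp.single x n) = n • cl x₀ := by
        rw [h5 x₀ x, ← Finsupp.smul_single_one, map_zsmul]
        rfl
      rw [h9, map_zsmul, h7, smul_eq_mul, mul_one]
  refine ⟨h5, AddEquiv.ofBijective deg ⟨fun z w h => ?_, fun n => ⟨n • cl x₀, ?_⟩⟩, h7⟩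
  · rw [h8 z, h8 w, h]
  · rw [map_zsmul, h7, smul_eq_mul, mul_one]

end Vale.Agent.P297L
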