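import Vale.Agent.P297L41.Defs

/-!
# The rows of the bridge for P297
-/

open CategoryTheory AlgebraicGeometry

namespace Vale.Agent.P297L

open Vale.Agent.P297 Vale.Agent.P299.S Vale.Agent.P009.AV Vale.Agent.P297Y

/-- A smooth connected scheme over `ℂ` is integral. -/
def INT : Prop := ∀ (S : Scheme.{0}) (f : S ⟶ SpecC) [Smooth f] [ConnectedSpace S], IsIntegral S

/-- A projective scheme is proper. -/
def PRO : Prop := ∀ (S : Scheme.{0}) (f : S ⟶ SpecC), IsProjective f → IsProper f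

/-- A smooth projective variety has an ample divisor (a hyperplane section). -/
def AMP : Prop := ∀ X : PVar, IsProjective X.str → ∃ A : Div X, IsAmple A

/-- The points of the normalization of a curve over `x` are the places centred at `x`. -/
def NORM : Prop := ∀ (S : Scheme.{0}) (f : S ⟶ SpecC) [IsProper f] (z : ZeroCycle S),
  IsPushDiv f z ↔ IsPrincipalCycle f z

/-- The canonical sheaf and the canonical divisor. -/
def CAN : Prop := ∀ X : PVar, SmoothOfRelativeDimension 2 X.str → pg X.str = 0 →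
  dim X = 2 ∧ ∃ κ : Div X, IsCanonical κ ∧ ¬ HasSec κ

/-- The final statement. -/
def Final : Prop :=
  ∀ (S : Scheme.{0}) (f : S ⟶ SpecC) [SmoothOfRelativeDimension 2 f] [ConnectedSpace S],
    IsProjective f → pg f = 0 → ∀ x₀ : ClosedPt S,
      ∃ (_ : IsIntegral S) (_ : Smooth f) (_ : IsProper f),
        (∃ (ι : Type) (_ : Fintype ι) (A : AbVar ℂ ι) (a : ClosedPt S → A.G),
          IsAlb ⟨S, f⟩ x₀ A a) ∧
        ∀ (ι : Type) [Fintype ι] (A : AbVar ℂ ι) (a : ClosedPt S → A.G),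
          IsAlb ⟨S, f⟩ x₀ A a → AlbBij f a

theorem albBij_of (hN : NORM) (X : PVar) {ι : Type} [Fintype ι] (A : AbVar ℂ ι)
    (a : ClosedPt X.X → A.G) (h : AlbIso X A a) : AlbBij X.str a := by
  have e : AddSubgroup.closure {z | IsPushDiv X.str z} = Rat X.str :=
    congrArg AddSubgroup.closure (Set.ext fun z => hN X.X X.str z)
  have key : ∀ H H' : AddSubgroup (ZeroCycle X.X), H = H' →
      (∃ (deg : ZeroCycle X.X ⧸ H' →+ ℤ) (alb : ZeroCycle X.X ⧸ H' →+ A.G),
        (∀ x, deg (QuotientAddGroup.mk (Finsupp.single x 1)) = 1) ∧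
        (∀ x, alb (QuotientAddGroup.mk (Finsupp.single x 1)) = a x) ∧
          Function.Bijective fun z : deg.ker => alb z.1) →
      ∃ (deg : ZeroCycle X.X ⧸ H →+ ℤ) (alb : ZeroCycle X.X ⧸ H →+ A.G),
        (∀ x, deg (QuotientAddGroup.mk (Finsupp.single x 1)) = 1) ∧
        (∀ x, alb (QuotientAddGroup.mk (Finsupp.single x 1)) = a x) ∧
          Function.Bijective fun z : deg.ker => alb z.1 := by
    rintro H _ rfl h
    exact h
  exact key _ _ e h

theorem final_of (hI : INT) (hP : PRO) (hA : AMP) (hN : NORM) (hC : CAN) (hB : BlochFull) :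
    Final := by
  intro S f _ _ hf hg x₀
  have h1 : Smooth f := SmoothOfRelativeDimension.smooth 2 f
  have h2 : IsIntegral S := hI S f
  have h3 : IsProper f := hP S f hf
  obtain ⟨hd, κ, hκ, h0⟩ := hC ⟨S, f⟩ ‹_› hg
  obtain ⟨h4, h5⟩ := hB ⟨⟨S, f⟩, hA ⟨S, f⟩ hf⟩ κ hd hκ h0 x₀
  exact ⟨h2, h1, h3, h4, fun ι _ A a ha => albBij_of hN ⟨S, f⟩ A a (h5 ι A a ha)⟩

end Vale.Agent.P297L
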