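import Vale.Agent.P297L41.Can
import Vale.Agent.P297L93.IntG
import Vale.Agent.P297L93.AmpG
import Vale.Agent.P297L93.MorM
import Vale.Agent.P297L1.Rat
import Vale.Agent.P297Y.Final

/-!
# The assembly over the literal definitions
-/

open CategoryTheory AlgebraicGeometry

namespace Vale.Agent.P297L

open Vale.Agent.P009.AV Vale.Agent.P297M

theorem albIso_of (X : P299.S.PVar) {ι : Type} [Fintype ι] (A : AbVar ℂ ι)
    (a : ClosedPt X.X → A.G) (h : P297Y.AlbIso X A a) : AlbIso (cl (S := X.X)) a := by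
  have e : P297M.Rat X.X = P297.Rat X.str := @P297L1.rat_eq _ X.str X.proper
  have key : ∀ H H' : AddSubgroup (ClosedPt X.X →₀ ℤ), H = H' →
      AlbIso (fun x => (QuotientAddGroup.mk (Finsupp.single x 1) : (ClosedPt X.X →₀ ℤ) ⧸ H')) a →
      AlbIso (fun x => (QuotientAddGroup.mk (Finsupp.single x 1) : (ClosedPt X.X →₀ ℤ) ⧸ H)) a := by
    rintro H _ rfl h
    exact h
  exact key _ _ e h

theorem asm (S : Scheme.{0}) (f : S ⟶ Spec (CommRingCat.of ℂ)) [SmoothOfRelativeDimension 2 f]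
    [ConnectedSpace S] (hf : P297M.IsProjective f) (hg : P297M.pg f = 0) (x₀ : ClosedPt S) :
    (∀ C : Curve S, ∃ _ : IsLocallyNoetherian C.Nor, FiniteDiv C.Nor) ∧
    (∃ (ι : Type) (_ : Fintype ι) (A : AbVar ℂ ι) (a : ClosedPt S → A.G), IsAlb f x₀ A a) ∧
      ∀ (ι : Type) [Fintype ι] (A : AbVar ℂ ι) (a : ClosedPt S → A.G),
        IsAlb f x₀ A a → AlbIso (cl (S := S)) a := by
  have h1 : Smooth f := SmoothOfRelativeDimension.smooth 2 f
  have h2 : IsIntegral S := P297G93.isIntegral_of_smooth f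
  obtain ⟨N, j, hj, hjf⟩ := hf
  have h3 : IsProper f := by
    have : IsProper (str (Fin (N + 1))) := P297G93.isProper_proj _
    rw [← hjf]
    infer_instance
  let X : P299.S.PVar := @P299.S.PVar.mk S f h2 h1 h3
  have hs : SmoothOfRelativeDimension 2 X.str := ‹_›
  obtain ⟨hd, κ, hκ, h0⟩ := can_gen X 2
  have h4 : ¬ P299.S.HasSec κ := fun h => by
    let _ := Module.compHom Γ(canonical f 2, ⊤) (cst f ⊤).hom
    have h5 : Subsingleton Γ(canonical f 2, ⊤) := rank_zero_iff (R := ℂ).1 hg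
    exact not_subsingleton_iff_nontrivial.2 (h0.1 h) h5
  have hA : ∃ A : P299.S.Div X, P299.S.IsAmple A :=
    @P297G93.amp_of_affine X _ _ j (inferInstanceAs (IsAffineHom (Y := Pj (Fin (N + 1))) j))
  obtain ⟨⟨ι, _, A, a, ha⟩, h6⟩ := P297Y.blochFull ⟨X, hA⟩ κ hd hκ h4 x₀
  exact ⟨P297L1.fin f, ⟨ι, _, A, a, (P297G93.isAlb X x₀ A a).2 ha⟩, fun ι _ A a ha =>
    albIso_of X A a (h6 ι A a ((P297G93.isAlb X x₀ A a).1 ha))⟩

end Vale.Agent.P297L
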