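import Vale.Agent.P297L41.E3
import Vale.Agent.P297L41.Rows
import Vale.Agent.P299.Q.Hartogs
import Vale.Agent.P299.Q.Smooth

/-!
# The canonical divisor and the canonical sheaf
-/

open CategoryTheory Opposite AlgebraicGeometry TopologicalSpace

namespace Vale.Agent.P297L

open Vale.Agent.P271L Vale.Agent.P299.G

section

variable {X : Scheme.{0}} [IsIntegral X] [IsNoetherian X] {f : X ⟶ Spec (CommRingCat.of ℂ)}
  [Algebra ℂ X.functionField] {n : ℕ}

theorem exists_divisor (hf : Compat f) [SmoothOfRelativeDimension n f]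
    (hn : ∀ x : X, IsIntegrallyClosed (X.presheaf.stalk x))
    (ω : Dr X [⋀^Fin n]→ₗ[X.functionField] X.functionField) {v : Fin n → Dr X} (hv : ω v ≠ 0) :
    ∃ κ : X → ℤ, {y | Order.coheight y = 1 ∧ κ y ≠ 0}.Finite ∧
      (∀ y, IsLeast {k : ℤ | ∃ w : Fin n → Dr X, (∀ i, Pres (w i) y) ∧ ω w ≠ 0 ∧
        Scheme.ord (ω w) y = k} (κ y)) ∧
      ((∃ g : X.functionField, g ≠ 0 ∧ ∀ y, Order.coheight y = 1 → 0 ≤ Scheme.ord g y + κ y) ↔
        Nontrivial Γ(canonical f n, ⊤)) := by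
  obtain ⟨T, hT⟩ := exists_ev_canonical hf ω hv
  choose d h0 hF hd using hT
  have key : ∀ x y, Fr T y (ω (d x))⁻¹ → Scheme.ord (ω (d y)) y = Scheme.ord (ω (d x)) y := by
    intro x y h
    obtain ⟨c, hc, h1⟩ := (hF y).unit h
    have h2 : ω (d y) = toK y c * ω (d x) := by
      rw [← mul_inv_eq_iff_eq_mul₀ (h0 x), h1, mul_comm (toK y c), mul_inv_cancel_left₀ (h0 y)]
    rw [h2, Scheme.ord_mul (toK_ne_zero hc.ne_zero) (h0 x), ord_toK_of_isUnit hc, zero_add]
  refine ⟨fun y => Scheme.ord (ω (d y)) y, ?_, fun y => ⟨⟨d y, (hd y y specializes_rfl).1, h0 y,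
    rfl⟩, ?_⟩, ⟨?_, fun h => ?_⟩⟩
  · obtain ⟨W, hW, h⟩ := (hF (genericPoint X)).nhds
    refine ((finite_codim_one (W : Set X)ᶜ W.isOpen.isClosed_compl fun h => h hW).union
      (finite_ord_ne_zero _ (h0 (genericPoint X)))).subset fun y hy => ?_
    by_cases hyW : y ∈ W
    · exact Or.inr fun h1 => hy.2 ((key _ y (h y hyW)).trans h1)
    · exact Or.inl ⟨hyW, hy.1⟩
  · rintro _ ⟨w, hw, hw0, rfl⟩
    obtain ⟨c, hc⟩ := (hd y y specializes_rfl).2 w hw
    rw [hc] at hw0 ⊢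
    rw [Scheme.ord_mul (left_ne_zero_of_mul hw0) (h0 y)]
    exact le_add_of_nonneg_left (ord_toK_nonneg c)
  · rintro ⟨g, hg, h⟩
    obtain ⟨s, hs⟩ := exists_of_ev (T := T) (V := ⊤) (g := g) fun z _ => ⟨_, hF z, by
      obtain ⟨c, hc⟩ := P299.Q.exists_of_forall_ord_nonneg_normal hn z (g * ω (d z))
        (mul_ne_zero hg (h0 z)) fun y hy hyz => by
          rw [Scheme.ord_mul hg (h0 z), ← key z y ((hF z).of_specializes hyz)]
          exact h y hy
      exact ⟨c, by rw [hc, mul_inv_cancel_right₀ (h0 z)]⟩⟩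
    refine ⟨s, 0, fun h1 => hg ?_⟩
    rw [← hs trivial, h1]
    exact map_zero _
  · obtain ⟨s, hs⟩ := exists_ne (0 : Γ(canonical f n, ⊤))
    have hg : T.θ ⊤ trivial s ≠ 0 := fun h1 => hs (ev_inj (T := T) (V := ⊤)
      (fun z _ => ⟨_, hF z⟩) fun _ => h1.trans (map_zero _).symm)
    refine ⟨_, hg, fun y _ => ?_⟩
    obtain ⟨c, hc⟩ := (hF y).exists_stalk (V := ⊤) trivial s
    rw [← Scheme.ord_mul hg (h0 y), hc, inv_mul_cancel_right₀ (h0 y)]
    exact ord_toK_nonneg c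

end

open Vale.Agent.P299.S in
/-- The canonical divisor exists; it has a section iff the canonical sheaf has one. -/
theorem can_gen (X : PVar) (n : ℕ) [SmoothOfRelativeDimension n X.str] :
    dim X = n ∧ ∃ κ : Div X, IsCanonical κ ∧
      (HasSec κ ↔ Nontrivial Γ(canonical X.str n, ⊤)) := by
  classical
  let _ : Algebra ℂ X.X.functionField := instAlgebraK X
  have hf : Compat (X := X.X) X.str := fun c =>
    (gk_r (X := X.X) (W := ⊤) (W' := ⊤) le_top trivial _).symm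
  have : CompactSpace SpecC := inferInstanceAs (CompactSpace (Spec (CommRingCat.of ℂ)))
  have : CompactSpace X.X := QuasiCompact.compactSpace_of_compactSpace X.str
  have : IsNoetherian X.X := {}
  have hs : SmoothOfRelativeDimension n (Y := Spec (CommRingCat.of ℂ)) X.str := ‹_›
  let _ : X.X.Over P299.Q.SpecC := ⟨X.str⟩
  have : Smooth (X.X ↘ P299.Q.SpecC) := X.smooth
  obtain ⟨b⟩ := exists_basis_der hf n
  have hdim : dim X = n := (Module.finrank_eq_card_basis b).trans (Fintype.card_fin n)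
  have hb : b.det b ≠ 0 := by
    rw [b.det_self]
    exact one_ne_zero
  obtain ⟨κ, h1, h2, h3⟩ := exists_divisor hf (P299.Q.isIntegrallyClosed_stalk_of_smooth X.X)
    b.det hb
  let D : Div X := Finsupp.ofSupportFinite (fun y => κ y.1)
    ((h1.preimage Subtype.val_injective.injOn).subset fun y hy => ⟨y.2, hy⟩)
  have hD : ∀ y, codim y = 1 → coef D y = κ y := fun y hy => dif_pos hy
  have hp : ∀ (v : Der X) (y : X.X), RegDer v y ↔ Pres (X := X.X) v y := fun v y =>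
    ⟨fun h a => (h _ ⟨a, rfl⟩).imp fun _ h => h.symm,
      fun h _ ⟨a, ha⟩ => ha ▸ (h a).imp fun _ h => h.symm⟩
  refine ⟨hdim, D, ?_, Iff.trans ?_ h3⟩
  · have h4 : ∃ ω : Ten X n, Nonzero ω ∧ IsAlt ω ∧ IsDivTensor ω D := by
      refine ⟨b.det.toMultilinearMap, ⟨b, hb⟩,
        fun v i j hv hij => b.det.map_eq_zero_of_eq v hv hij, fun y hy => ?_⟩
      rw [hD y hy]
      refine ⟨?_, ?_⟩
      · obtain ⟨w, hw, h5, h6⟩ := (h2 y).1
        exact ⟨_, ⟨w, fun i => (hp _ _).2 (hw i), rfl⟩, h5, h6⟩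
      · rintro _ ⟨_, ⟨w, hw, rfl⟩, h5, rfl⟩
        exact (h2 y).2 ⟨w, fun i => (hp _ _).1 (hw i), h5, rfl⟩
    subst hdim
    exact h4
  · refine exists_congr fun g => and_congr_right fun hg => forall_congr' fun y => ?_
    exact ⟨fun h hy => hD y hy ▸ h hy hg, fun h hy _ => (hD y hy).symm ▸ h hy⟩

theorem can : CAN := by
  intro X _ h
  obtain ⟨h1, κ, h2, h3⟩ := can_gen X 2
  refine ⟨h1, κ, h2, fun h4 => ?_⟩
  have h5 : Subsingleton (Forms X.str) := rank_zero_iff.1 h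
  exact not_subsingleton_iff_nontrivial.2 (h3.1 h4) h5

end Vale.Agent.P297L
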