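import Vale.Agent.P297Y.AJ.Stmt
import Vale.Agent.P271L61.Defs
import Mathlib.AlgebraicGeometry.ProjectiveSpectrum.Basic
import Mathlib.AlgebraicGeometry.Normalization
import Mathlib.AlgebraicGeometry.AlgebraicCycle.Basic
import Mathlib.RingTheory.MvPolynomial.Homogeneous

/-!
# Projective surfaces, the geometric genus, zero-cycles modulo rational equivalence
-/

open CategoryTheory AlgebraicGeometry

namespace Vale.Agent.P297L

open Vale.Agent.P297 Vale.Agent.P299.S Vale.Agent.P009.AV

attribute [local instance] MvPolynomial.gradedAlgebra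

noncomputable section

/-- The grading of `ℂ[x_0, …, x_N]` by the degree. -/
abbrev grading (N : ℕ) : ℕ → Submodule ℂ (MvPolynomial (Fin (N + 1)) ℂ) :=
  MvPolynomial.homogeneousSubmodule (Fin (N + 1)) ℂ

/-- The projective space `ℙ^N = Proj ℂ[x_0, …, x_N]`. -/
def PN (N : ℕ) : Scheme.{0} := Proj (grading N)

/-- The structure morphism `ℙ^N ⟶ Spec ℂ`. -/
def toC (N : ℕ) : PN N ⟶ SpecC :=
  Proj.toSpecZero (grading N) ≫ Spec.map (CommRingCat.ofHom (algebraMap ℂ (grading N 0)))

variable {S : Scheme.{0}}

/-- `S` is projective over `ℂ`: a closed subscheme of a projective space. -/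
def IsProjective (f : S ⟶ SpecC) : Prop :=
  ∃ (N : ℕ) (j : S ⟶ PN N), IsClosedImmersion j ∧ j ≫ toC N = f

/-- The global sections of the canonical sheaf `ω_S = ⋀^2 Ω_S` of a surface. -/
def Forms (f : S ⟶ SpecC) : Type := Γ(P271L.canonical f 2, ⊤)

instance (f : S ⟶ SpecC) : AddCommGroup (Forms f) :=
  inferInstanceAs (AddCommGroup Γ(P271L.canonical f 2, ⊤))

instance (f : S ⟶ SpecC) : Module ℂ (Forms f) :=
  Module.compHom Γ(P271L.canonical f 2, ⊤) (P271L.cst f ⊤).hom

/-- The geometric genus `p_g(S) = h^0(S, ω_S)`. -/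
def pg (f : S ⟶ SpecC) : Cardinal := Module.rank ℂ (Forms f)

/-- The normalization of the integral closed subscheme of `S` with generic point `η`: the
normalization of `S` in the field of rational functions `κ(η)` of that subscheme. -/
abbrev Nor (η : S) : Scheme.{0} := (S.fromSpecResidueField η).normalization

/-- The morphism from the normalization to `S`. -/
abbrev nu (η : S) : Nor η ⟶ S := (S.fromSpecResidueField η).fromNormalization

/-- The zero-cycle `z` is the pushforward of the divisor `c` of a nonzero rational function `u` on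
the normalization of an integral curve in `S`. -/
def IsPushDiv (f : S ⟶ SpecC) (z : ZeroCycle S) : Prop :=
  ∃ η : S, IsCurvePoint f η ∧ ∃ (_ : IsLocallyNoetherian (Nor η)) (u : (Nor η).functionField)
    (c : AlgebraicCycle (Nor η) ℤ), u ≠ 0 ∧ (∀ y, c y = Scheme.ord u y) ∧
      ∀ x : ClosedPt S, z x = AlgebraicCycle.map (nu η) Order.height Order.height c x

/-- The group `CH_0(S)` of zero-cycles modulo rational equivalence. -/
abbrev Chow (f : S ⟶ SpecC) : Type := ZeroCycle S ⧸ AddSubgroup.closure {z | IsPushDiv f z}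

/-- The class of a closed point. -/
def cls (f : S ⟶ SpecC) (x : ClosedPt S) : Chow f := QuotientAddGroup.mk (Finsupp.single x 1)

/-- The degree and the homomorphism `∑ n_i x_i ↦ ∑ n_i a(x_i)` are defined on `CH_0(S)`, and the
latter is a bijection from the kernel `CH_0(S)^0` of the degree onto `G`. -/
def AlbBij (f : S ⟶ SpecC) {G : Type} [AddCommGroup G] (a : ClosedPt S → G) : Prop :=
  ∃ (deg : Chow f →+ ℤ) (alb : Chow f →+ G), (∀ x, deg (cls f x) = 1) ∧
    (∀ x, alb (cls f x) = a x) ∧ Function.Bijective fun z : deg.ker => alb z.1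

end

end Vale.Agent.P297L
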