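import Vale.Agent.P271L61.C
import Mathlib.RingTheory.Etale.Kaehler
import Mathlib.RingTheory.Smooth.StandardSmoothCotangent
import Mathlib.LinearAlgebra.Determinant

/-!
# Differentials on open sets, their values on rational vector fields, local frames
-/

open CategoryTheory Opposite AlgebraicGeometry TopologicalSpace

namespace Vale.Agent.P297L

open Vale.Agent.P271L Vale.Agent.P299.G

noncomputable section

theorem alt_sum {R M N : Type} [CommRing R] [AddCommGroup M] [Module R M] [AddCommGroup N]
    [Module R N] {n : ℕ} (φ : M [⋀^Fin n]→ₗ[R] N) (A : Matrix (Fin n) (Fin n) R) (b : Fin n → M) :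
    φ (fun i => ∑ j, A i j • b j) = A.det • φ b := by
  have h : φ.compLinearMap (Fintype.linearCombination R b) =
      (LinearMap.toSpanSingleton R N (φ b)).compAlternatingMap (Pi.basisFun R (Fin n)).det := by
    refine Module.Basis.ext_alternating (Pi.basisFun R (Fin n)) fun i h => ?_
    let σ : Equiv.Perm (Fin n) := Equiv.ofBijective i (Finite.injective_iff_bijective.1 h)
    have h1 : (fun k => Fintype.linearCombination R b (Pi.basisFun R (Fin n) (i k))) = b ∘ σ := by
      funext k
      simp [σ]
    change φ (fun k => Fintype.linearCombination R b (Pi.basisFun R (Fin n) (i k))) =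
      (Pi.basisFun R (Fin n)).det (Pi.basisFun R (Fin n) ∘ σ) • φ b
    rw [h1, AlternatingMap.map_perm, AlternatingMap.map_perm, Module.Basis.det_self, smul_assoc,
      one_smul]
  have h2 := congrArg (fun ψ => ψ fun i => A i) h
  rw [Pi.basisFun_det] at h2
  exact h2

theorem exists_ext {k P L : Type} [CommRing k] [CommRing P] [CommRing L] [Algebra k P]
    [Algebra k L] [Algebra P L] [IsScalarTower k P L] [Algebra.FormallyEtale P L]
    (D : Derivation k P L) : ∃ D' : Derivation k L L, ∀ a, D' (algebraMap P L a) = D a := by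
  refine ⟨((D.liftKaehlerDifferential.liftBaseChange L) ∘ₗ
    (KaehlerDifferential.tensorKaehlerEquivOfFormallyEtale k P L).symm.toLinearMap).compDer
      (KaehlerDifferential.D k L), fun a => ?_⟩
  change (D.liftKaehlerDifferential.liftBaseChange L)
    ((KaehlerDifferential.tensorKaehlerEquivOfFormallyEtale k P L).symm
      (KaehlerDifferential.D k L (algebraMap P L a))) = _
  rw [KaehlerDifferential.tensorKaehlerEquivOfFormallyEtale_symm_D_algebraMap,
    LinearMap.liftBaseChange_tmul]
  simp

variable {X : Scheme.{0}} (f : X ⟶ Spec (CommRingCat.of ℂ)) {W W' : X.Opens}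

/-- The presheaf of the Kähler differentials. -/
abbrev Om : Pre X := PresheafOfModules.DifferentialsConstruction.relativeDifferentials' (const f)

/-- The differential of a function. -/
def dd (W : X.Opens) (a : Γ(X, W)) : S (Om f) W :=
  CommRingCat.KaehlerDifferential.d (f := cst f W) a

theorem dd_add (a b : Γ(X, W)) : dd f W (a + b) = dd f W a + dd f W b :=
  (CommRingCat.KaehlerDifferential.D (cst f W)).d_add a b

theorem dd_mul (a b : Γ(X, W)) : dd f W (a * b) = a • dd f W b + b • dd f W a :=
  (CommRingCat.KaehlerDifferential.D (cst f W)).d_mul a b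

theorem dd_cst (c : ℂ) : dd f W (cst f W c) = 0 :=
  (CommRingCat.KaehlerDifferential.D (cst f W)).d_map c

theorem res_dd (e : W' ≤ W) (a : Γ(X, W)) : res (Om f) e (dd f W a) = dd f W' (r e a) :=
  PresheafOfModules.DifferentialsConstruction.relativeDifferentials'_map_d (const f)
    (homOfLE e).op a

theorem span_dd : Submodule.span Γ(X, W) (Set.range (dd f W)) = ⊤ :=
  letI := (cst f W).hom.toAlgebra
  KaehlerDifferential.span_range_derivation ℂ Γ(X, W)

theorem om_induction {C : S (Om f) W → Prop} (p : S (Om f) W) (hd : ∀ a, C (dd f W a))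
    (h0 : C 0) (h1 : ∀ p q, C p → C q → C (p + q)) (h2 : ∀ (a : Γ(X, W)) p, C p → C (a • p)) :
    C p := by
  have hp : p ∈ Submodule.span Γ(X, W) (Set.range (dd f W)) := by
    rw [span_dd]
    trivial
  induction hp using Submodule.span_induction with
  | mem x hx =>
    obtain ⟨a, rfl⟩ := hx
    exact hd a
  | zero => exact h0
  | add x y _ _ hx hy => exact h1 x y hx hy
  | smul a x _ hx => exact h2 a x hx

theorem r_cst (e : W' ≤ W) (c : ℂ) : r e (cst f W c) = cst f W' c :=
  congrArg (fun φ : CommRingCat.of ℂ ⟶ Γ(X, W') => φ c) (cst_map f (homOfLE e).op)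

/-- Generators of the differentials on an affine open set generate them locally. -/
theorem gen_of_span {n : ℕ} (hW : IsAffineOpen W) {b : Fin n → S (Om f) W}
    (hb : ∀ p : S (Om f) W, ∃ a : Fin n → Γ(X, W), p = ∑ i, a i • b i) : Gen (Om f) W b := by
  intro V e p z hz
  obtain ⟨g, hg, hzg⟩ := hW.exists_basicOpen_le (V := V) ⟨z, hz⟩ (e hz)
  refine ⟨X.basicOpen g, hg, hzg, ?_⟩
  have hl := hW.isLocalization_basicOpen g
  let N : Submodule Γ(X, X.basicOpen g) (S (Om f) (X.basicOpen g)) :=
    Submodule.span _ (Set.range fun i => res (Om f) (hg.trans e) (b i))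
  have h1 : ∀ a : Γ(X, W), dd f _ (r (hg.trans e) a) ∈ N := fun a => by
    obtain ⟨c, hc⟩ := hb (dd f W a)
    rw [← res_dd, hc, map_sum]
    exact N.sum_mem fun i _ => by
      rw [res_smul]
      exact N.smul_mem _ (Submodule.subset_span ⟨i, rfl⟩)
  have h2 : ∀ q : S (Om f) (X.basicOpen g), q ∈ N := fun q => by
    refine om_induction f q (fun a => ?_) N.zero_mem (fun _ _ => N.add_mem)
      fun a _ => N.smul_mem a
    obtain ⟨⟨c, s⟩, hs⟩ := IsLocalization.surj (Submonoid.powers g) a
    obtain ⟨u, hu⟩ := (IsLocalization.map_units Γ(X, X.basicOpen g) s).exists_left_inv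
    have h3 : a * r (hg.trans e) s.1 = r (hg.trans e) c := hs
    have h4 : u * r (hg.trans e) s.1 = 1 := hu
    have h5 := h1 c
    rw [← h3, dd_mul, N.add_mem_iff_right (N.smul_mem _ (h1 s.1))] at h5
    have h6 := N.smul_mem u h5
    rwa [smul_smul, h4, one_smul] at h6
  obtain ⟨a, ha⟩ := (Submodule.mem_span_range_iff_exists_fun _).1 (h2 (res (Om f) hg p))
  exact ⟨a, ha.symm⟩

/-- Near every point the differentials have a basis. -/
theorem exists_basis (n : ℕ) [SmoothOfRelativeDimension n f] [IsIntegral X] (x : X) :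
    ∃ W : X.Opens, IsAffineOpen W ∧ x ∈ W ∧
      Nonempty (Module.Basis (Fin n) Γ(X, W) (S (Om f) W)) := by
  obtain ⟨U, -, W, hW, hx, e, h⟩ :=
    SmoothOfRelativeDimension.exists_isStandardSmoothOfRelativeDimension (n := n) (f := f) x
  obtain rfl : U = ⊤ := eq_top_iff.2 fun y _ => by
    rw [Subsingleton.elim (α := PrimeSpectrum ℂ) y (f x)]
    exact e hx
  have h1 : RingHom.IsStandardSmoothOfRelativeDimension n (cst f W).hom :=
    h.comp (RingHom.IsStandardSmoothOfRelativeDimension.equiv
      (Scheme.ΓSpecIso (CommRingCat.of ℂ)).commRingCatIsoToRingEquiv.symm)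
  let _ := (cst f W).hom.toAlgebra
  have h2 : Algebra.IsStandardSmoothOfRelativeDimension n ℂ Γ(X, W) := h1
  have h3 := Algebra.IsStandardSmoothOfRelativeDimension.isStandardSmooth n (R := ℂ) (S := Γ(X, W))
  have : Nonempty W := ⟨⟨x, hx⟩⟩
  have h4 := Algebra.IsStandardSmoothOfRelativeDimension.rank_kaehlerDifferential
    (R := ℂ) (S := Γ(X, W)) n
  have := Module.finite_of_rank_eq_nat h4
  exact ⟨W, hW, hx, ⟨Module.finBasisOfFinrankEq Γ(X, W) Ω[Γ(X, W)⁄ℂ]
    (Module.finrank_eq_of_rank_eq h4)⟩⟩

end

end Vale.Agent.P297L
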