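import Vale.Agent.P297L41.E1

/-!
# Values of differentials on rational vector fields; dual frames
-/

open CategoryTheory Opposite AlgebraicGeometry TopologicalSpace

namespace Vale.Agent.P297L

open Vale.Agent.P271L Vale.Agent.P299.G

noncomputable section

variable {X : Scheme.{0}} [IsIntegral X] {f : X ⟶ Spec (CommRingCat.of ℂ)} {W W' : X.Opens}
  [Algebra ℂ X.functionField]

/-- The constants in the function field are those of the structure morphism. -/
def Compat (f : X ⟶ Spec (CommRingCat.of ℂ)) : Prop :=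
  ∀ c : ℂ, algebraMap ℂ X.functionField c = gk ⊤ trivial (cst f ⊤ c)

/-- The rational vector fields. -/
abbrev Dr (X : Scheme.{0}) [IsIntegral X] [Algebra ℂ X.functionField] : Type :=
  Derivation ℂ X.functionField X.functionField

/-- The vector field `v` preserves the local ring at `y`. -/
def Pres (v : Dr X) (y : X) : Prop :=
  ∀ a : X.presheaf.stalk y, ∃ b : X.presheaf.stalk y, v (toK y a) = toK y b

theorem Compat.gk_cst (hf : Compat f) (h : genericPoint X ∈ W) (c : ℂ) :
    gk W h (cst f W c) = algebraMap ℂ X.functionField c := by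
  rw [hf c, ← r_cst f le_top c, gk_r]

theorem exists_ev_om (hf : Compat f) (v : Dr X) : ∃ T : Ev (Om f) X.functionField,
    ∀ W h a, T.θ W h (dd f W a) = v (gk W h a) := by
  let D : ∀ (W : X.Opens) (h : genericPoint X ∈ W),
      ((ModuleCat.restrictScalars (gk W h)).obj
        (ModuleCat.of X.functionField X.functionField)).Derivation (cst f W) := fun W h =>
    ModuleCat.Derivation.mk (fun a => (v (gk W h a) : X.functionField))
      (fun a b => by rw [map_add, map_add]; rfl)
      (fun a b => by rw [map_mul, v.leibniz]; rfl)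
      (fun c => by rw [hf.gk_cst h, v.map_algebraMap]; rfl)
  let θ : ∀ W : X.Opens, genericPoint X ∈ W → S (Om f) W →+ X.functionField := fun W h =>
    (D W h).desc.hom.toAddMonoidHom
  have h1 : ∀ W h a, θ W h (dd f W a) = v (gk W h a) := fun W h a => (D W h).desc_d a
  have h2 : ∀ W h (a : Γ(X, W)) p, θ W h (a • p) = gk W h a • θ W h p := fun W h a p =>
    (D W h).desc.hom.map_smul a p
  refine ⟨⟨θ, h2, fun {W W'} e h p => ?_⟩, h1⟩
  induction p using om_induction with
  | hd a => rw [res_dd, h1, h1, gk_r]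
  | h0 => rw [map_zero, map_zero, map_zero]
  | h1 p q hp hq => rw [map_add, map_add, map_add, hp, hq]
  | h2 a p hp => rw [res_smul, h2, h2, hp, gk_r]

/-- The values of the differentials on the vector field `v`. -/
def evOm (hf : Compat f) (v : Dr X) : Ev (Om f) X.functionField := (exists_ev_om hf v).choose

theorem evOm_dd (hf : Compat f) (v : Dr X) (h : genericPoint X ∈ W) (a : Γ(X, W)) :
    (evOm hf v).θ W h (dd f W a) = v (gk W h a) := (exists_ev_om hf v).choose_spec W h a

theorem evOm_sum (hf : Compat f) {n : ℕ} (c : Fin n → X.functionField) (v : Fin n → Dr X)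
    (h : genericPoint X ∈ W) (p : S (Om f) W) :
    (evOm hf (∑ j, c j • v j)).θ W h p = ∑ j, c j * (evOm hf (v j)).θ W h p := by
  induction p using om_induction with
  | hd a =>
    simp only [evOm_dd]
    have := map_sum (Derivation.coeFnAddMonoidHom (R := ℂ) (A := X.functionField)
      (M := X.functionField)) (fun j => c j • v j) Finset.univ
    refine (congrFun this _).trans ?_
    rw [Finset.sum_apply]
    rfl
  | h0 => simp
  | h1 p q hp hq => simp only [map_add, hp, hq, mul_add, Finset.sum_add_distrib]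
  | h2 a p hp =>
    simp only [Ev.smul, hp, smul_eq_mul, Finset.mul_sum]
    exact Finset.sum_congr rfl fun j _ => mul_left_comm _ _ _

theorem evOm_reg (hf : Compat f) {v : Dr X} {y : X} (hv : Pres v y) (hy : y ∈ W)
    (p : S (Om f) W) : (evOm hf v).θ W (gen_mem hy) p ∈ (toK y).range := by
  induction p using om_induction with
  | hd a =>
    obtain ⟨b, hb⟩ := hv (X.presheaf.germ W y hy a)
    rw [evOm_dd, ← toK_germ hy, hb]
    exact ⟨b, rfl⟩
  | h0 => rw [map_zero]; exact zero_mem _
  | h1 p q hp hq => rw [map_add]; exact add_mem hp hq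
  | h2 a p hp =>
    rw [Ev.smul, smul_eq_mul]
    exact mul_mem ⟨_, toK_germ hy a⟩ hp

theorem der_ext (hW : IsAffineOpen W) (h : genericPoint X ∈ W) {v w : Dr X}
    (hvw : ∀ a, v (gk W h a) = w (gk W h a)) : v = w := by
  have : Nonempty W := ⟨⟨_, h⟩⟩
  have := functionField_isFractionRing_of_isAffineOpen X W hW
  ext z
  obtain ⟨a, b, -, rfl⟩ := IsFractionRing.div_surjective (A := Γ(X, W)) z
  have h1 : ∀ a, v (algebraMap Γ(X, W) X.functionField a) =
      w (algebraMap Γ(X, W) X.functionField a) := hvw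
  rw [Derivation.leibniz_div, Derivation.leibniz_div, h1, h1]

theorem pres_of (hW : IsAffineOpen W) {y : X} (hy : y ∈ W) {v : Dr X}
    (hv : ∀ a, ∃ b, v (gk W (gen_mem hy) a) = gk W (gen_mem hy) b) : Pres v y := by
  intro t
  have := hW.isLocalization_stalk ⟨y, hy⟩
  let _ := TopCat.Presheaf.algebra_section_stalk X.presheaf (U := W) ⟨y, hy⟩
  obtain ⟨⟨a, s⟩, hab⟩ := IsLocalization.surj (hW.primeIdealOf ⟨y, hy⟩).asIdeal.primeCompl t
  obtain ⟨u, hu⟩ := (IsLocalization.map_units (X.presheaf.stalk y) s).exists_left_inv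
  have h1 : t * X.presheaf.germ W y hy s.1 = X.presheaf.germ W y hy a := hab
  have h2 : u * X.presheaf.germ W y hy s.1 = 1 := hu
  have h3 := congrArg (toK y) h1
  have h4 := congrArg (toK y) h2
  rw [map_mul, toK_germ, toK_germ] at h3
  rw [map_mul, toK_germ, map_one] at h4
  obtain ⟨a', ha'⟩ := hv a
  obtain ⟨s', hs'⟩ := hv s.1
  rw [← h3, v.leibniz, hs', smul_eq_mul, smul_eq_mul] at ha'
  refine ⟨u * (X.presheaf.germ W y hy a' - t * X.presheaf.germ W y hy s'), ?_⟩
  rw [map_mul, map_sub, map_mul, toK_germ, toK_germ, ← ha', add_sub_cancel_left, ← mul_assoc, h4,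
    one_mul]

/-- A local frame of the differentials, with the dual frame of vector fields. -/
theorem exists_frame (hf : Compat f) (n : ℕ) [SmoothOfRelativeDimension n f] (x : X) :
    ∃ (W : X.Opens) (hx : x ∈ W) (b : Fin n → S (Om f) W)
      (d : Module.Basis (Fin n) X.functionField (Dr X)), Gen (Om f) W b ∧
      (∀ v i, d.repr v i = (evOm hf v).θ W (gen_mem hx) (b i)) ∧ ∀ y ∈ W, ∀ i, Pres (d i) y := by
  classical
  obtain ⟨W, hW, hx, ⟨b⟩⟩ := exists_basis f n x
  have h := gen_mem hx
  have : Nonempty W := ⟨⟨_, h⟩⟩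
  have := functionField_isFractionRing_of_isAffineOpen X W hW
  let _ := (cst f W).hom.toAlgebra
  have : IsScalarTower ℂ Γ(X, W) X.functionField :=
    IsScalarTower.of_algebraMap_eq fun c => (hf.gk_cst h c).symm
  have : Algebra.FormallyEtale Γ(X, W) X.functionField :=
    Algebra.FormallyEtale.of_isLocalization (nonZeroDivisors Γ(X, W))
  have h1 : ∀ j, ∃ δ : Dr X, ∀ a, δ (gk W h a) = gk W h (b.repr (dd f W a) j) := fun j => by
    let l : Ω[Γ(X, W)⁄ℂ] →ₗ[Γ(X, W)] Γ(X, W) := b.coord j
    exact exists_ext (((Algebra.linearMap Γ(X, W) X.functionField).comp l).compDer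
      (KaehlerDifferential.D ℂ Γ(X, W)))
  choose δ hδ using h1
  have h2 : ∀ j p, (evOm hf (δ j)).θ W h p = gk W h (b.repr p j) := fun j p => by
    induction p using om_induction with
    | hd a => rw [evOm_dd, hδ]
    | h0 => simp
    | h1 p q hp hq => simp only [map_add, hp, hq, Finsupp.add_apply]
    | h2 a p hp => rw [Ev.smul, hp, map_smul, Finsupp.smul_apply, smul_eq_mul, smul_eq_mul, map_mul]
  have h3 : ∀ (c : Fin n → X.functionField) i,
      (evOm hf (∑ j, c j • δ j)).θ W h (b i) = c i := fun c i => by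
    simp only [evOm_sum, h2, Module.Basis.repr_self, Finsupp.single_apply, apply_ite (gk W h),
      map_one, map_zero, mul_ite, mul_one, mul_zero, Finset.sum_ite_eq, Finset.mem_univ, if_true]
  have h4 : ∀ v : Dr X, v = ∑ j, (evOm hf v).θ W h (b j) • δ j := fun v =>
    der_ext hW h fun a => by
      rw [← evOm_dd hf, ← evOm_dd hf, evOm_sum]
      conv_lhs => rw [← b.sum_repr (dd f W a), map_sum]
      exact Finset.sum_congr rfl fun j _ => by rw [Ev.smul, h2, smul_eq_mul, mul_comm]
  have h5 : LinearIndependent X.functionField δ := Fintype.linearIndependent_iff.2 fun c hc i => by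
    have h6 := h3 0 i
    simp only [Pi.zero_apply, zero_smul, Finset.sum_const_zero] at h6
    rw [← h3 c i, hc, h6]
  have h6 : ⊤ ≤ Submodule.span X.functionField (Set.range δ) := fun v _ =>
    (Submodule.mem_span_range_iff_exists_fun _).2 ⟨_, (h4 v).symm⟩
  refine ⟨W, hx, b, Module.Basis.mk h5 h6, gen_of_span f hW fun p => ⟨_, (b.sum_repr p).symm⟩,
    fun v i => ?_, fun y hy i => ?_⟩
  · have h7 := (Module.Basis.mk h5 h6).repr_sum_self fun j => (evOm hf v).θ W h (b j)
    simp only [Module.Basis.coe_mk] at h7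
    rw [← h4 v] at h7
    exact congrFun h7 i
  · rw [Module.Basis.coe_mk]
    exact pres_of hW hy fun a => ⟨_, hδ i a⟩

end

end Vale.Agent.P297L
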